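import Vale.Agent.P352.BW.Spec
import Vale.Agent.P352G.Defs

open Vale.Agent.P352G

/-!
# P352 BW: literals of the blocks
-/

set_option linter.all false

noncomputable section

open MeasureTheory Filter Topology
open scoped ComplexConjugate InnerProductSpace BoundedContinuousFunction

namespace Vale.Agent.P352.BW

open Vale.Agent.P132 (ModData expB)
open UniformSpace (Completion)

/-! ## Part 1: half-sided modular inclusions (no field theory) -/

variable {H : Type*} [NormedAddCommGroup H] [InnerProductSpace ℂ H] [CompleteSpace H]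

variable {M N : VonNeumannAlgebra H} {ξ : H}

/-! ## Part 2: affiliated operators -/

section aff

open GF H246 H496 H755 H15

/-! ## Part 3: geometry of the net -/

variable {D : Type*} [NormedAddCommGroup D] [InnerProductSpace ℂ D] [GrD D]

/-- block U: the extension `Ue` of `U` -/
structure UStmtZ (Q : Theory D) (A : (V → V) → D → D) : Prop where
  coe : ∀ s L x (v : D), 0 < s → IsLor L → Ue Q s L x (v : Completion D) = (Q.U s L x v : D)
  lin : ∀ s L x, 0 < s → IsLor L → ∃ W : Completion D ≃ₗᵢ[ℂ] Completion D,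
    ∀ z, W z = Ue Q s L x z
  mul : ∀ s L a s' L' a' z, 0 < s → 0 < s' → IsLor L → IsLor L' → OkL L L' →
    Ue Q s L a (Ue Q s' L' a' z) = Ue Q (s * s') (fun m => sim 1 L 0 (L' m)) (sim s L a a') z
  mulG : ∀ s L a s' L' a', 0 < s → 0 < s' → IsLor L → IsLor L' → ∃ e : Bool, ∀ z,
    Ue Q s L a (Ue Q s' L' a' z) =
      cond e (Gm D) 1 (Ue Q (s * s') (fun m => sim 1 L 0 (L' m)) (sim s L a a') z)
  cj : ∀ s L a M M' b z, 0 < s → IsLor L → IsLor M → IsLor M' → IsNull b → AN b M →
    (∀ x, sim 1 M' 0 (sim 1 L 0 x) = sim 1 L 0 (sim 1 M 0 x)) →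
    Ue Q s L a (Ue Q 1 M 0 z) = Ue Q 1 M' (a - sim 1 M' 0 a) (Ue Q s L a z)
  gam : ∀ s L x z, 0 < s → IsLor L → Ue Q s L x (Gm D z) = Gm D (Ue Q s L x z)
  g2 : ∀ z, Gm D (Gm D z) = z
  vac : ∀ s L x, 0 < s → IsLor L → Ue Q s L x (om Q) = om Q

/-! ## Part 4: generators on `D` -/

end aff

end Vale.Agent.P352.BW

end
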