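import Vale.Agent.P352.BW.U
import Vale.Agent.P352Z.P352.BW.Spec
import Vale.Agent.P352G2.Kit

open Vale.Agent.P352G

open MeasureTheory Filter Topology

namespace Vale.Agent.P352.BW

open GF H246 H496 H755 H15
open UniformSpace (Completion)

noncomputable section

variable {D : Type*} [NormedAddCommGroup D] [InnerProductSpace ℂ D] [GrD D] {Q : Theory D}
  {A : (V → V) → D → D}

/-- the inverse of a similitude operator -/
lemma ue_invZ (R : RepZ Q A) {s : ℝ} {L : Ix → V} (hs : 0 < s)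
    (hL : IsLor L) (ok : OkL L (linv L)) (y : V) (x : D) :
    Q.U s L y (Q.U s⁻¹ (linv L) (-(sim s⁻¹ (linv L) 0 y)) x) = x := by
  rw [R.mul s L y s⁻¹ (linv L) _ x hs (inv_pos.2 hs) hL (isLor_linv hL) ok, linv_id hL,
    mul_inv_cancel₀ hs.ne']
  have e : sim s L y (-(sim s⁻¹ (linv L) 0 y)) = 0 := by
    have h1 := ue_sim hs hL y 0
    have h2 : sim s⁻¹ (linv L) (-(sim s⁻¹ (linv L) 0 y)) 0 = -(sim s⁻¹ (linv L) 0 y) := by
      funext n; simp [sim]
    rwa [h2] at h1
  rw [e]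
  exact Uone x

lemma ue_invCZ (R : RepZ Q A) {s : ℝ} {L : Ix → V} (hs : 0 < s)
    (hL : IsLor L) (ok : OkL L (linv L)) (y : V) (z : Completion D) :
    Ue Q s L y (Ue Q s⁻¹ (linv L) (-(sim s⁻¹ (linv L) 0 y)) z) = z :=
  Completion.induction_on z (isClosed_eq ((ue_cont _ _ _).comp (ue_cont _ _ _)) continuous_id)
    fun v => by rw [ue_coe (inv_pos.2 hs) (isLor_linv hL), ue_coe hs hL, ue_invZ R hs hL ok]

/-- block U -/
theorem ublockZ (R : RepZ Q A) : UStmtZ Q A where
  coe := fun s L x v hs hL => ue_coe hs hL x v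
  lin := fun s L x hs hL =>
    ⟨LinearIsometryEquiv.ofSurjective (ueC Q hs hL x) (R.ue_surj hs hL x), fun z => rfl⟩
  mul := fun s L a s' L' a' z hs hs' hL hL' ok => R.ue_mul a a' z hs hs' hL hL' ok
  mulG := fun s L a s' L' a' hs hs' hL hL' => R.ue_mul' a a' hs hs' hL hL'
  cj := fun s L a M M' b z hs hL hM hM' hb h e => R.ue_cj a z hs hL hM hM' hb h e
  gam := fun s L x z hs hL => (R.gUe hs hL x z).symm
  g2 := R.g0.gz
  vac := fun s L x hs hL => by
    rw [om, ue_coe hs hL, Q.U_vac s L x hs hL]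

end

end Vale.Agent.P352.BW
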