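import Vale.Agent.P352.BW.Fe4
import Vale.Agent.P352Z.P352.BW.H26.G3
import Vale.Agent.P352Z.P352.BW.H649.Lw

open Vale.Agent.P352G

/-!
# P352 BW: the regularity of the net and the unitary groups
-/

set_option linter.all false

noncomputable section

open MeasureTheory Filter Topology
open scoped ComplexConjugate InnerProductSpace BoundedContinuousFunction

namespace Vale.Agent.P352.BW

open Vale.Agent.P132 (ModData expB)
open UniformSpace (Completion)
open GF H246 H496 H755 H15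

variable {D : Type*} [NormedAddCommGroup D] [InnerProductSpace ℂ D] [GrD D]
  {Q : Theory D} {A : (V → V) → D → D} {𝒜 : Set V → VonNeumannAlgebra (Completion D)}
  {T : Ix → Ix → Fld D} {J : Ix → Fld D}
  {G G' : V → D → D} {S S' : V → ℝ → Completion D →L[ℂ] Completion D}

namespace Gr0

/-- the modular unitaries of the regions `Rg a b c` -/
theorem modZ (h : Gr0 Q 𝒜 S) (hU : UStmtZ Q A)
    (bw : ∀ a b t L (E : ModData (𝒜 (Wdg a b 0)) (om Q)) z, IsNull a → IsNull b →
      GF.mdot a b = 1 → IsLor L →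
      (∀ x, sim 1 L 0 x = x + ((Real.exp (-(2 * Real.pi * t)) - 1) * GF.mdot b x) • a +
        ((Real.exp (2 * Real.pi * t) - 1) * GF.mdot a x) • b) → E.U t z = Ue Q 1 L 0 z)
    {a b : V} (ha : IsNull a) (hb : IsNull b) (hab : GF.mdot a b = 1)
    {c : ℝ} (hc : 0 ≤ c) (E : ModData (𝒜 (Wdg a b 0)) (om Q))
    (E' : ModData (𝒜 (HM.Rg a b c)) (om Q)) (t : ℝ) (z : Completion D) :
    E'.U t z = S a (c * (1 - Real.exp (-(2 * Real.pi * t)))) (E.U t z) := by
  have hL := MB.isLor_b ha hb hab t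
  have hbw : ∀ z, E.U t z = Ue Q 1 (bst a b (Real.exp (-(2 * Real.pi * t)) - 1)
      (Real.exp (2 * Real.pi * t) - 1)) 0 z := fun z =>
    bw a b t _ E z ha hb hab hL (fun x => sim_bst a b _ _ x)
  have hsim : sim 1 (bst a b (Real.exp (-(2 * Real.pi * t)) - 1)
      (Real.exp (2 * Real.pi * t) - 1)) 0 a = Real.exp (-(2 * Real.pi * t)) • a := by
    rw [sim_bst, md_comm b a, hab, ha.1]
    module
  have e1 : S a c (S a (-c) z) = z :=
    congrArg (fun T : Completion D →L[ℂ] Completion D => T z) (h.mul_neg ha c)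
  have h1 := h.nat ha hb hab hc E E' t (S a (-c) z)
  rw [e1] at h1
  rw [← h1, hbw, h.cov 1 _ _ a a (-c) z one_pos (Real.exp_pos _) hL ha ha hsim, ← hbw]
  have e2 : S a c (S a (Real.exp (-(2 * Real.pi * t)) / 1 * -c) (E.U t z)) =
      (S a c * S a (Real.exp (-(2 * Real.pi * t)) / 1 * -c)) (E.U t z) := rfl
  rw [e2, ← h.add a _ _ ha]
  congr 2
  ring

end Gr0

/-- **Uniqueness of the unitary groups** -/
theorem Gr0.uniqZ (hG : TfGenZ Q) (N : LNmZ Q A 𝒜) (h : Gr0 Q 𝒜 S) (h' : Gr0 Q 𝒜 S') {a : V}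
    (ha : IsNull a) {c : ℝ} (hc : c < 1) (z : Completion D) : S a c z = S' a c z := by
  obtain ⟨b, hb, hab⟩ := H755.exists_dual ha
  obtain ⟨E⟩ := N.modW ha hb hab
  obtain ⟨E'⟩ := N.modR ha hb hab zero_le_one
  have hbw := fun a b t L E z ha hb hab hL hx => N.bw hG a b t L E z ha hb hab hL hx
  set t : ℝ := -(Real.log (1 - c)) / (2 * Real.pi) with ht
  have e1 : Real.exp (-(2 * Real.pi * t)) = 1 - c := by
    have : -(2 * Real.pi * t) = Real.log (1 - c) := by
      rw [ht]
      field_simp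
    rw [this, Real.exp_log (by linarith)]
  have e2 : (1 : ℝ) * (1 - Real.exp (-(2 * Real.pi * t))) = c := by rw [e1]; ring
  have e3 : E.U t (E.U (-t) z) = z := by
    rw [← E.U_add_apply, add_neg_cancel, JB.U_zero]
    rfl
  have k1 := h.modZ (ublockZ N.toRepZ) hbw ha hb hab zero_le_one E E' t (E.U (-t) z)
  have k2 := h'.modZ (ublockZ N.toRepZ) hbw ha hb hab zero_le_one E E' t (E.U (-t) z)
  rw [e2, e3] at k1 k2
  rw [← k1, ← k2]

section congr

variable (hh : ∀ a x, IsNull a → G a x = G' a x)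
include hh

end congr

end Vale.Agent.P352.BW

end
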